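import Crest.Agent.R113.Fibre

/-!
# Row 113: transitivity of the fibred shift, the intertwiner and the multipliers
-/

open MeasureTheory Filter Topology
open scoped InnerProductSpace BigOperators ENNReal

set_option linter.unusedSectionVars false

namespace Crest.Agent.R113

noncomputable section

open Classical

open Crest.AnalysisR.TwoAdic

/-- Suppose `f ∈ W`, `g ∈ Wᗮ` are nonzero.  For all `n m`, a.e. `⟪g x, Sf x ^ n ((V^m f) x)⟫ = 0`
(`ae_inner_eq_zero`, `fib_pow`), so by `horth` a.e. the support of `g x` lies below the support of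
`(V^m f) x`.  By induction on `m`, a.e. `f x p ≠ 0 → (V^m f) (σ^[m] x) (p - m) ≠ 0`.  Choose `p, q`
with `A = {f x p ≠ 0}`, `B = {g x q ≠ 0}` of positive measure (`Lp.stronglyMeasurable`).  The set
`{x | ∃ m ≥ m₀, σ^[m] x ∈ B}` has full measure (`Ergodic.ae_empty_or_univ_of_preimage_ae_le`), which
gives `x ∈ A` and `m ≥ p - q` with `q < p - m`. -/
theorem transitive {X : Type*} [MeasurableSpace X] {μ : Measure X} [IsProbabilityMeasure μ]
    {σ : X → X} (hσ : Ergodic σ μ) {Sf Vf : X → seqHilbert →L[ℂ] seqHilbert}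
    {S V : Lp seqHilbert 2 μ →L[ℂ] Lp seqHilbert 2 μ}
    (hS : ∀ f : Lp seqHilbert 2 μ,
      ∀ᵐ x ∂μ, (S f : X → seqHilbert) x = Sf x ((f : X → seqHilbert) x))
    (hV : ∀ f : Lp seqHilbert 2 μ,
      ∀ᵐ x ∂μ, (V f : X → seqHilbert) (σ x) = Vf x ((f : X → seqHilbert) x))
    (horth : ∀ x (f g : seqHilbert), (∀ n : ℕ, ⟪g, (Sf x ^ n) f⟫_ℂ = 0) →
      ∀ p q : ℤ, f p ≠ 0 → g q ≠ 0 → q < p)
    (hVf : ∀ᵐ x ∂μ, ∀ (v : seqHilbert) (p : ℤ), v p ≠ 0 → Vf x v (p - 1) ≠ 0)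
    (W : Submodule ℂ (Lp seqHilbert 2 μ)) (hW : IsClosed (W : Set (Lp seqHilbert 2 μ)))
    (hSW : ∀ f ∈ W, S f ∈ W) (hVW : ∀ f ∈ W, V f ∈ W)
    (hM : ∀ g : X → ℂ, Measurable g → (∃ C : ℝ, ∀ x, ‖g x‖ ≤ C) → ∀ f ∈ W,
      ∀ f' : Lp seqHilbert 2 μ,
        (∀ᵐ x ∂μ, (f' : X → seqHilbert) x = g x • (f : X → seqHilbert) x) → f' ∈ W) :
    W = ⊥ ∨ W = ⊤ := by
  by_contra hne
  push Not at hne
  obtain ⟨hb, ht⟩ := hne
  obtain ⟨f, hf, hf0⟩ := (Submodule.ne_bot_iff W).1 hb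
  have : CompleteSpace W := hW.completeSpace_coe
  have hob : Wᗮ ≠ ⊥ := fun h => ht (Submodule.orthogonal_eq_bot_iff.1 h)
  obtain ⟨g, hg, hg0⟩ := (Submodule.ne_bot_iff _).1 hob
  have hpow : ∀ (T : Lp seqHilbert 2 μ →L[ℂ] Lp seqHilbert 2 μ), (∀ f ∈ W, T f ∈ W) →
      ∀ (n : ℕ), ∀ f ∈ W, (T ^ n) f ∈ W := by
    intro T hT n
    induction n with
    | zero => intro f hf; simpa using hf
    | succ n ih =>
      intro f hf
      rw [pow_succ', mul_apply_eq_comp]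
      exact hT _ (ih f hf)
  have hq : ∀ m : ℕ, Measure.QuasiMeasurePreserving σ^[m] μ μ := fun m =>
    (hσ.toMeasurePreserving.iterate m).quasiMeasurePreserving
  have h1 : ∀ m : ℕ, ∀ᵐ x ∂μ, ∀ p q : ℤ, ((V ^ m) f : X → seqHilbert) x p ≠ 0 →
      (g : X → seqHilbert) x q ≠ 0 → q < p := by
    intro m
    have h : ∀ᵐ x ∂μ, ∀ n : ℕ,
        ⟪(g : X → seqHilbert) x, (Sf x ^ n) (((V ^ m) f : X → seqHilbert) x)⟫_ℂ = 0 := by
      refine ae_all_iff.2 fun n => ?_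
      filter_upwards [ae_inner_eq_zero hM (hpow S hSW n _ (hpow V hVW m f hf)) hg,
        fib_pow hS n ((V ^ m) f)] with x h1 h2
      rw [← h2]
      exact h1
    filter_upwards [h] with x hx
    exact horth x _ _ hx
  have h2 : ∀ m : ℕ, ∀ᵐ x ∂μ, ∀ p : ℤ, (f : X → seqHilbert) x p ≠ 0 →
      ((V ^ m) f : X → seqHilbert) (σ^[m] x) (p - m) ≠ 0 := by
    intro m
    induction m with
    | zero => exact Eventually.of_forall fun x p h => by simpa using h
    | succ m ih =>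
      filter_upwards [ih, (hq m).ae (hV ((V ^ m) f)), (hq m).ae hVf] with x h1 h2 h3 p hp
      rw [pow_succ', mul_apply_eq_comp, Function.iterate_succ_apply', h2]
      have := h3 _ _ (h1 p hp)
      have e : p - ((m + 1 : ℕ) : ℤ) = p - m - 1 := by push_cast; ring
      rwa [e]
  have hzero : ∀ k : Lp seqHilbert 2 μ, (∀ᵐ x ∂μ, ∀ p : ℤ, (k : X → seqHilbert) x p = 0) → k = 0 := by
    intro k hk
    refine Lp.eq_zero_iff_ae_eq_zero.2 ?_
    filter_upwards [hk] with x hx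
    exact lp.ext (funext hx)
  obtain ⟨q, hq0⟩ : ∃ q : ℤ, μ {x | (g : X → seqHilbert) x q ≠ 0} ≠ 0 := by
    by_contra h
    push Not at h
    exact hg0 (hzero g (ae_all_iff.2 fun q => ae_iff.2 (h q)))
  set B := {x | (g : X → seqHilbert) x q ≠ 0} with hB
  have hBm : MeasurableSet B := by
    have hc : Continuous fun v : seqHilbert => v q :=
      (continuous_apply q).comp lp.uniformContinuous_coe.continuous
    have hm : Measurable fun x => (g : X → seqHilbert) x q :=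
      (hc.comp_stronglyMeasurable (Lp.stronglyMeasurable g)).measurable
    exact (hm (measurableSet_singleton 0)).compl
  have h3 : ∀ m₀ : ℕ, ∀ᵐ x ∂μ, ∃ m, m₀ ≤ m ∧ σ^[m] x ∈ B := by
    intro m₀
    have hCm : MeasurableSet {x | ∃ m, m₀ ≤ m ∧ σ^[m] x ∈ B} := by
      have e : {x | ∃ m, m₀ ≤ m ∧ σ^[m] x ∈ B} = ⋃ m, ⋃ (_ : m₀ ≤ m), σ^[m] ⁻¹' B := by
        ext x
        simp
      rw [e]
      exact MeasurableSet.iUnion fun m => MeasurableSet.iUnion fun _ => (hq m).measurable hBm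
    have hsub : σ ⁻¹' {x | ∃ m, m₀ ≤ m ∧ σ^[m] x ∈ B} ⊆ {x | ∃ m, m₀ ≤ m ∧ σ^[m] x ∈ B} := by
      rintro x ⟨m, hm, hx⟩
      exact ⟨m + 1, by omega, by rwa [Function.iterate_succ_apply]⟩
    rcases hσ.ae_empty_or_univ_of_preimage_ae_le hCm.nullMeasurableSet hsub.eventuallyLE with h | h
    · exfalso
      apply hq0
      rw [← (hσ.toMeasurePreserving.iterate m₀).measure_preimage hBm.nullMeasurableSet]
      refine measure_mono_null (fun x hx => ?_) (ae_eq_empty.1 h)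
      exact ⟨m₀, le_rfl, hx⟩
    · exact ae_iff.2 (ae_eq_univ.1 h)
  refine hf0 (hzero f ?_)
  filter_upwards [ae_all_iff.2 h2, ae_all_iff.2 h3, ae_all_iff.2 fun m => (hq m).ae (h1 m)]
    with x a2 a3 a1 p
  by_contra hp
  obtain ⟨m, hm, hx⟩ := a3 (p - q).toNat
  have := a1 m _ _ (a2 m p hp) hx
  omega

end

end Crest.Agent.R113
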