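import Crest.Agent.R113.Weights
import Crest.Agent.R113.Trans

/-!
# Row 113: the fibred weighted shift and its backward intertwiner (S0150)
-/

open MeasureTheory Filter Topology
open scoped InnerProductSpace BigOperators ENNReal

set_option linter.unusedSectionVars false

namespace Crest.Agent.R113

noncomputable section

open Classical

open Crest.AnalysisR.TwoAdic

attribute [local instance] borelTwoAdic borelSpace_twoAdic

theorem s0150 :
    ∃ (β b : ℤ → ℤ_[2] → ℝ) (Sfib Vfib : ℤ_[2] → (seqHilbert →L[ℂ] seqHilbert))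
      (S V : fibreSpace →L[ℂ] fibreSpace),
      (∀ j, Measurable (β j)) ∧ (∀ j x, 0 < β j x) ∧
      (∀ x j, Sfib x (basisVec j) = (β j x : ℂ) • basisVec (j + 1)) ∧
      (∀ f : fibreSpace, ∀ᵐ x ∂haarTwoAdic, (S f : ℤ_[2] → seqHilbert) x = Sfib x ((f : ℤ_[2] → seqHilbert) x)) ∧
      (∀ x, ∀ W : Submodule ℂ seqHilbert, IsClosed (W : Set seqHilbert) →
        ((∀ v ∈ W, Sfib x v ∈ W) ↔ (W = ⊥ ∨ W = ⊤ ∨ ∃ h : ℤ, W = tailSpace h))) ∧
      S ≠ 0 ∧ ‖S‖ = Real.exp (-10) ∧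
      (∀ n : ℕ, 1 ≤ n → ‖S ^ n‖ ≤ Real.exp (-10 * (((n + 1) ^ 2 / 4 : ℕ) : ℝ))) ∧
      ‖V‖ ≤ 1 ∧ V * S = S * V ∧
      (∀ j, Measurable (b j)) ∧ (∀ j x, 0 ≤ b j x ∧ b j x ≤ 1) ∧
      (∀ x j, Vfib x (basisVec j) = (b j x : ℂ) • basisVec (j - 1)) ∧
      (∀ f : fibreSpace, ∀ᵐ x ∂haarTwoAdic,
        (V f : ℤ_[2] → seqHilbert) (x + 1) = Vfib x ((f : ℤ_[2] → seqHilbert) x)) ∧
      (∃ N : Set ℤ_[2], haarTwoAdic N = 0 ∧ ∀ x, x ∉ N →
        (∀ j, 0 < b j x) ∧
        (∀ h : ℤ, closure (Vfib x '' (tailSpace h : Set seqHilbert)) = (tailSpace (h - 1) : Set seqHilbert)) ∧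
        closure (Set.range (Vfib x)) = Set.univ) ∧
      (∀ W : Submodule ℂ fibreSpace, IsClosed (W : Set fibreSpace) →
        (∀ f ∈ W, S f ∈ W) → (∀ f ∈ W, V f ∈ W) →
        (∀ g : ℤ_[2] → ℂ, Measurable g → (∃ C : ℝ, ∀ x, ‖g x‖ ≤ C) →
          ∀ f ∈ W, ∀ f' : fibreSpace,
            (∀ᵐ x ∂haarTwoAdic, (f' : ℤ_[2] → seqHilbert) x = g x • (f : ℤ_[2] → seqHilbert) x) → f' ∈ W) →
        W = ⊥ ∨ W = ⊤) := by
  obtain ⟨d, b, hdm, hF, hbm, hb01, hbpos, hrel⟩ := exists_weights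
  have hb1 : ∀ j x, |b j x| ≤ 1 := fun j x => by
    rw [abs_of_nonneg (hb01 j x).1]; exact (hb01 j x).2
  set Sf : ℤ_[2] → seqHilbert →L[ℂ] seqHilbert := fun x => fsh fun j => d j x with hSf
  set Vf : ℤ_[2] → seqHilbert →L[ℂ] seqHilbert := fun x => wsh (-1) fun j => b j x with hVf
  have hβm : ∀ j, Measurable fun x => Real.exp (-d j x) := fun j => (hdm j).neg.exp
  have hSn : ∀ x, ‖Sf x‖ ≤ 1 := fun x => norm_wsh_le (hF x).abs_le (hF x).abs_le
  have hVn : ∀ x, ‖Vf x‖ ≤ 1 := fun x => norm_wsh_le (fun j => hb1 j x) fun j => hb1 j x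
  obtain ⟨S, hS⟩ := exists_fib (μ := haarTwoAdic) (MeasurePreserving.id _) (A := Sf)
    (fun v => stronglyMeasurable_wsh hβm (fun j x => (hF x).abs_le j) v) hSn
  obtain ⟨V, hV⟩ := exists_fib (μ := haarTwoAdic) (pres_add (-1)) (A := Vf)
    (fun v => stronglyMeasurable_wsh hbm hb1 v) hVn
  have hS' : ∀ f : fibreSpace, ∀ᵐ x ∂haarTwoAdic,
      (S f : ℤ_[2] → seqHilbert) x = Sf x ((f : ℤ_[2] → seqHilbert) x) := hS
  have hV' : ∀ f : fibreSpace, ∀ᵐ x ∂haarTwoAdic,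
      (V f : ℤ_[2] → seqHilbert) (x + 1) = Vf x ((f : ℤ_[2] → seqHilbert) x) := fun f => by
    filter_upwards [(pres_add 1).quasiMeasurePreserving.ae (hV f)] with x hx
    simpa using hx
  have hSb : ∀ x j, Sf x (basisVec j) = (Real.exp (-d j x) : ℂ) • basisVec (j + 1) :=
    fun x j => wsh_basisVec (hF x).abs_le j
  have hVb : ∀ x j, Vf x (basisVec j) = (b j x : ℂ) • basisVec (j - 1) :=
    fun x j => wsh_basisVec (fun j => hb1 j x) j
  have hpow : ∀ n : ℕ, 1 ≤ n → ‖S ^ n‖ ≤ Real.exp (-10 * (((n + 1) ^ 2 / 4 : ℕ) : ℝ)) :=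
    fun n hn => norm_le_of_fib (MeasurePreserving.id _) (A := fun x => Sf x ^ n)
      (Real.exp_pos _).le (fun x => (hF x).norm_pow_le hn) (fib_pow hS' n)
  have hnorm : ‖S‖ = Real.exp (-10) := by
    refine le_antisymm (by simpa using hpow 1 le_rfl) ?_
    have h := le_norm_of_fib hS' (v := basisVec 0) (w := (Real.exp (-10) : ℂ) • basisVec 1)
      (norm_basisVec 0) fun x => by
        have h0 : d 0 x = 10 := (hF x).zero
        rw [hSb, h0, zero_add]
    rwa [norm_smul, norm_basisVec, mul_one, Complex.norm_real, Real.norm_eq_abs,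
      abs_of_pos (Real.exp_pos _)] at h
  have hcomm : ∀ x, (Vf x).comp (Sf x) = (Sf (x + 1)).comp (Vf x) := fun x => by
    refine R194.ext_dl fun j => ?_
    rw [← basisVec_eq_dl]
    change Vf x (Sf x (basisVec j)) = Sf (x + 1) (Vf x (basisVec j))
    rw [hSb, hVb, map_smul, map_smul, hSb, hVb, smul_smul, smul_smul, add_sub_cancel_right,
      sub_add_cancel, ← Complex.ofReal_mul, ← Complex.ofReal_mul, hrel]
  have hnull : ∀ᵐ x ∂haarTwoAdic, x ≠ -1 := by
    rw [ae_iff]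
    simpa using haar_singleton (-1)
  refine ⟨fun j x => Real.exp (-d j x), b, Sf, Vf, S, V, hβm, fun j x => Real.exp_pos _, hSb, hS',
    fun x W hW => (hF x).invariant_iff W hW, ?_, hnorm, hpow,
    norm_le_of_fib (pres_add (-1)) (A := fun x => Vf (x + -1)) zero_le_one (fun x => hVn _) hV,
    ?_, hbm, hb01, hVb, hV', ⟨{-1}, haar_singleton _, fun x hx => ⟨hbpos x hx, fun h => ?_, ?_⟩⟩,
    fun W hW hSW hVW hM => transitive ergodic_add_one hS' hV'
      (fun x f g ho p q hp hq => (hF x).orth ho hp hq) ?_ W hW hSW hVW hM⟩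
  · intro h
    rw [h, norm_zero] at hnorm
    exact (Real.exp_pos _).ne hnorm
  · refine ContinuousLinearMap.ext fun f => Lp.ext ?_
    filter_upwards [hV (S f), hS' (V f), hV f,
      (pres_add (-1)).quasiMeasurePreserving.ae (hS' f)] with x h₁ h₂ h₃ h₄
    change (V (S f) : ℤ_[2] → seqHilbert) x = (S (V f) : ℤ_[2] → seqHilbert) x
    rw [h₁, h₂, h₃, h₄]
    have := congrArg (fun A => A ((f : ℤ_[2] → seqHilbert) (x + -1))) (hcomm (x + -1))
    simpa using this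
  · exact closure_image_tail (fun j => hb1 j x) (fun j => (hbpos x hx j).ne') h
  · exact closure_range_wsh (fun j => hb1 j x) fun j => (hbpos x hx j).ne'
  · filter_upwards [hnull] with x hx v p hv
    rw [hVf]
    simp only
    rw [wsh_apply fun j => hb1 j x]
    have e : p - 1 - -1 = p := by ring
    rw [e]
    exact mul_ne_zero (by exact_mod_cast (hbpos x hx p).ne') hv

end

end Crest.Agent.R113
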