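import Crest.Agent.R113.Shift
import Crest.Agent.Lib.Banach.LpTwo

/-!
# Row 113: fibrewise operators on vector valued `L²`
-/

open MeasureTheory Filter Topology
open scoped InnerProductSpace BigOperators ENNReal

set_option linter.unusedSectionVars false

namespace Crest.Agent.R113

noncomputable section

open Classical

open Crest.AnalysisR.TwoAdic

section
variable {X : Type*} [MeasurableSpace X] {μ : Measure X}
  {E : Type*} [NormedAddCommGroup E] [InnerProductSpace ℂ E] [CompleteSpace E]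

theorem aesm_fib [TopologicalSpace.SeparableSpace E] {A : X → E →L[ℂ] E}
    (hA : ∀ v, StronglyMeasurable fun x => A x v) {f : X → E} (hf : AEStronglyMeasurable f μ) :
    AEStronglyMeasurable (fun x => A x (f x)) μ := by
  borelize E
  have : SecondCountableTopology E := UniformSpace.secondCountable_of_separable E
  have h1 : StronglyMeasurable (Function.uncurry fun (v : E) (x : X) => A x v) :=
    stronglyMeasurable_uncurry_of_continuous_of_stronglyMeasurable
      (fun x => (A x).continuous) hA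
  have h2 : StronglyMeasurable fun x => A x (hf.mk f x) :=
    h1.comp_measurable (g := fun x => (hf.mk f x, x))
      (hf.stronglyMeasurable_mk.measurable.prodMk measurable_id)
  refine ⟨_, h2, ?_⟩
  filter_upwards [hf.ae_eq_mk] with x hx
  rw [← hx]

theorem memLp_fib [TopologicalSpace.SeparableSpace E] {A : X → E →L[ℂ] E}
    (hA : ∀ v, StronglyMeasurable fun x => A x v) {C : ℝ} (hC : ∀ x, ‖A x‖ ≤ C)
    (f : Lp E 2 μ) : MemLp (fun x => A x ((f : X → E) x)) 2 μ :=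
  MemLp.of_le_mul (c := C) (Lp.memLp f) (aesm_fib hA (Lp.aestronglyMeasurable f))
    (Eventually.of_forall fun x =>
      ((A x).le_opNorm _).trans (mul_le_mul_of_nonneg_right (hC x) (norm_nonneg _)))

theorem exists_fib0 [TopologicalSpace.SeparableSpace E]
    {A : X → E →L[ℂ] E} (hA : ∀ v, StronglyMeasurable fun x => A x v) {C : ℝ}
    (hC : ∀ x, ‖A x‖ ≤ C) :
    ∃ T : Lp E 2 μ →L[ℂ] Lp E 2 μ, ∀ f : Lp E 2 μ,
      ∀ᵐ x ∂μ, (T f : X → E) x = A x ((f : X → E) x) := by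
  let T₀ : Lp E 2 μ →ₗ[ℂ] Lp E 2 μ :=
    { toFun := fun f => (memLp_fib hA hC f).toLp _
      map_add' := fun f g => by
        ext1
        filter_upwards [(memLp_fib hA hC (f + g)).coeFn_toLp, (memLp_fib hA hC f).coeFn_toLp,
          (memLp_fib hA hC g).coeFn_toLp, Lp.coeFn_add f g,
          Lp.coeFn_add ((memLp_fib hA hC f).toLp _) ((memLp_fib hA hC g).toLp _)]
          with x h1 h2 h3 h4 h5
        rw [h1, h5, Pi.add_apply, h2, h3, h4, Pi.add_apply, map_add]
      map_smul' := fun z f => by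
        ext1
        filter_upwards [(memLp_fib hA hC (z • f)).coeFn_toLp, (memLp_fib hA hC f).coeFn_toLp,
          Lp.coeFn_smul z f, Lp.coeFn_smul z ((memLp_fib hA hC f).toLp _)] with x h1 h2 h3 h4
        rw [h1, RingHom.id_apply, h4, Pi.smul_apply, h2, h3, Pi.smul_apply, map_smul] }
  have hT₀ : ∀ f : Lp E 2 μ, ∀ᵐ x ∂μ, (T₀ f : X → E) x = A x ((f : X → E) x) :=
    fun f => (memLp_fib hA hC f).coeFn_toLp
  refine ⟨T₀.mkContinuous C fun f => ?_, hT₀⟩
  refine Lp.norm_le_mul_norm_of_ae_le_mul ?_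
  filter_upwards [hT₀ f] with x hx
  rw [hx]
  exact ((A x).le_opNorm _).trans (mul_le_mul_of_nonneg_right (hC x) (norm_nonneg _))

/-- `x ↦ A x (f x)` is strongly measurable by
`stronglyMeasurable_uncurry_of_continuous_of_stronglyMeasurable` (`borelize E`), and in `L²` by
`MemLp.of_le_mul`; build the operator with `LinearMap.mkContinuous` and compose with
`Lp.compMeasurePreserving`. -/
theorem exists_fib [TopologicalSpace.SeparableSpace E] {φ : X → X} (hφ : MeasurePreserving φ μ μ)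
    {A : X → E →L[ℂ] E} (hA : ∀ v, StronglyMeasurable fun x => A x v) {C : ℝ}
    (hC : ∀ x, ‖A x‖ ≤ C) :
    ∃ T : Lp E 2 μ →L[ℂ] Lp E 2 μ, ∀ f : Lp E 2 μ,
      ∀ᵐ x ∂μ, (T f : X → E) x = A (φ x) ((f : X → E) (φ x)) := by
  obtain ⟨T, hT⟩ := exists_fib0 (μ := μ) hA hC
  refine ⟨(Lp.compMeasurePreservingₗᵢ ℂ φ hφ).toContinuousLinearMap.comp T, fun f => ?_⟩
  filter_upwards [Lp.coeFn_compMeasurePreserving (T f) hφ,
    hφ.quasiMeasurePreserving.ae (hT f)] with x h1 h2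
  exact h1.trans h2

/-- `Lp.norm_le_mul_norm_of_ae_le_mul` against `Lp.compMeasurePreserving φ hφ f` -/
theorem norm_le_of_fib {φ : X → X} (hφ : MeasurePreserving φ μ μ) {A : X → E →L[ℂ] E} {C : ℝ}
    (hC0 : 0 ≤ C) (hC : ∀ x, ‖A x‖ ≤ C) {T : Lp E 2 μ →L[ℂ] Lp E 2 μ}
    (hT : ∀ f : Lp E 2 μ, ∀ᵐ x ∂μ, (T f : X → E) x = A x ((f : X → E) (φ x))) : ‖T‖ ≤ C := by
  refine T.opNorm_le_bound hC0 fun f => ?_
  rw [← Lp.norm_compMeasurePreserving f hφ]
  refine Lp.norm_le_mul_norm_of_ae_le_mul ?_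
  filter_upwards [hT f, Lp.coeFn_compMeasurePreserving f hφ] with x h1 h2
  rw [h1, h2]
  exact ((A x).le_opNorm _).trans (mul_le_mul_of_nonneg_right (hC x) (norm_nonneg _))

theorem fib_pow {A : X → E →L[ℂ] E} {T : Lp E 2 μ →L[ℂ] Lp E 2 μ}
    (hT : ∀ f : Lp E 2 μ, ∀ᵐ x ∂μ, (T f : X → E) x = A x ((f : X → E) x)) (n : ℕ) (f : Lp E 2 μ) :
    ∀ᵐ x ∂μ, ((T ^ n) f : X → E) x = (A x ^ n) ((f : X → E) x) := by
  induction n with
  | zero => exact Eventually.of_forall fun x => by simp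
  | succ n ih =>
    filter_upwards [ih, hT ((T ^ n) f)] with x h1 h2
    rw [pow_succ', pow_succ', mul_apply_eq_comp, mul_apply_eq_comp, h2, h1]

/-- test on the constant function `v` (`Lp.const`, `Lp.norm_const`) -/
theorem le_norm_of_fib [IsProbabilityMeasure μ] {A : X → E →L[ℂ] E}
    {T : Lp E 2 μ →L[ℂ] Lp E 2 μ}
    (hT : ∀ f : Lp E 2 μ, ∀ᵐ x ∂μ, (T f : X → E) x = A x ((f : X → E) x)) {v w : E}
    (hv : ‖v‖ = 1) (hw : ∀ x, A x v = w) : ‖w‖ ≤ ‖T‖ := by
  have h1 : T (Lp.const 2 μ v) = Lp.const 2 μ w := by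
    ext1
    filter_upwards [hT (Lp.const 2 μ v), Lp.coeFn_const 2 μ v, Lp.coeFn_const 2 μ w]
      with x h1 h2 h3
    rw [h1, h2, h3]
    exact hw x
  have h2 : ∀ u : E, ‖Lp.const 2 μ u‖ = ‖u‖ := fun u => by
    rw [Lp.norm_const' 2 μ u (by norm_num) (by norm_num)]
    simp
  have h3 := T.le_opNorm (Lp.const 2 μ v)
  rwa [h1, h2, h2, hv, mul_one] at h3

/-- a closed subspace which is invariant under bounded multipliers is fibrewise orthogonal to its
orthogonal complement: for measurable `s`, `∫_s ⟪g x, f x⟫ = ⟪g, 1_s f⟫ = 0`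
(`Integrable.ae_eq_zero_of_forall_setIntegral_eq_zero`, `L2.inner_def`,
`L2.integrable_inner`; `1_s f = (Lp.memLp f).indicator hs |>.toLp`) -/
theorem ae_inner_eq_zero {W : Submodule ℂ (Lp E 2 μ)}
    (hM : ∀ g : X → ℂ, Measurable g → (∃ C : ℝ, ∀ x, ‖g x‖ ≤ C) → ∀ f ∈ W, ∀ f' : Lp E 2 μ,
      (∀ᵐ x ∂μ, (f' : X → E) x = g x • (f : X → E) x) → f' ∈ W)
    {f g : Lp E 2 μ} (hf : f ∈ W) (hg : g ∈ Wᗮ) :
    ∀ᵐ x ∂μ, ⟪(g : X → E) x, (f : X → E) x⟫_ℂ = 0 := by
  refine (L2.integrable_inner (𝕜 := ℂ) g f).ae_eq_zero_of_forall_setIntegral_eq_zero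
    fun s hs _ => ?_
  have hm : MemLp (s.indicator (f : X → E)) 2 μ := (Lp.memLp f).indicator hs
  have hmem : hm.toLp _ ∈ W := by
    refine hM (s.indicator fun _ => 1) (measurable_const.indicator hs) ⟨1, fun x => ?_⟩ f hf _ ?_
    · by_cases hx : x ∈ s <;> simp [hx]
    · filter_upwards [hm.coeFn_toLp] with x hx
      rw [hx]
      by_cases hx : x ∈ s <;> simp [hx]
  have h0 : ⟪g, hm.toLp _⟫_ℂ = 0 := (Submodule.mem_orthogonal' W g).1 hg _ hmem
  rw [L2.inner_def] at h0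
  rw [← integral_indicator hs, ← h0]
  refine integral_congr_ae ?_
  filter_upwards [hm.coeFn_toLp] with x hx
  rw [hx]
  by_cases hx : x ∈ s <;> simp [hx]

end

instance separable_seqHilbert : TopologicalSpace.SeparableSpace seqHilbert :=
  Lib.Banach.separableSpace_lp

end

end Crest.Agent.R113
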