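import Crest.Agent.R113.Asm150

/-!
# Row 113: a quasinilpotent operator without hyperinvariant subspaces (S0148)
-/

open MeasureTheory Filter Topology
open scoped InnerProductSpace BigOperators ENNReal

set_option linter.unusedSectionVars false

namespace Crest.Agent.R113

noncomputable section

open Classical

open Crest.AnalysisR.TwoAdic

attribute [local instance] borelTwoAdic borelSpace_twoAdic

/-- `exists_hilbertBasis` gives a basis indexed by a set `w`; it is countable (an orthonormal family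
is `1`-separated, `Set.PairwiseDisjoint.countable_of_isOpen` for the balls of radius `1/2`) and
infinite (otherwise `HilbertBasis.toOrthonormalBasis` gives finite dimension); reindex along
`w ≃ ℕ` with `HilbertBasis.mk` and `HilbertBasis.dense_span`. -/
theorem exists_hilbertBasis_nat (H : Type*) [NormedAddCommGroup H] [InnerProductSpace ℂ H]
    [CompleteSpace H] [TopologicalSpace.SeparableSpace H] (hH : ¬ FiniteDimensional ℂ H) :
    Nonempty (HilbertBasis ℕ ℂ H) := by
  obtain ⟨w, b, -⟩ := exists_hilbertBasis ℂ H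
  have hon := b.orthonormal
  have hc : Countable w := by
    refine Pairwise.countable_of_isOpen_disjoint (s := fun i : w => Metric.ball (b i) (1 / 2))
      (fun i j hij => ?_) (fun _ => Metric.isOpen_ball) fun _ => Metric.nonempty_ball.2 one_half_pos
    refine Metric.ball_disjoint_ball ?_
    have h1 : ‖⟪b i, b i - b j⟫_ℂ‖ ≤ ‖b i‖ * ‖b i - b j‖ := norm_inner_le_norm _ _
    rw [inner_sub_right, hon.2 hij, sub_zero, inner_self_eq_norm_sq_to_K, hon.1 i] at h1
    rw [dist_eq_norm, add_halves]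
    simpa using h1
  have hi : Infinite w := by
    by_contra h
    rw [not_infinite_iff_finite] at h
    have := Fintype.ofFinite w
    exact hH b.toOrthonormalBasis.toBasis.finiteDimensional_of_finite
  obtain ⟨e⟩ : Nonempty (ℕ ≃ w) := nonempty_equiv_of_countable
  refine ⟨HilbertBasis.mk (hon.comp e e.injective) ?_⟩
  rw [e.surjective.range_comp, b.dense_span]

/-- `Lp.SecondCountableTopology` -/
instance separable_fibreSpace : TopologicalSpace.SeparableSpace fibreSpace := by
  have : Fact ((2 : ℝ≥0∞) ≠ ∞) := ⟨by simp⟩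
  have : SecondCountableTopology fibreSpace := Lp.SecondCountableTopology
  infer_instance

/-- the constant functions `basisVec j` are linearly independent (`Lp.constL` is injective) -/
theorem not_finiteDimensional_fibreSpace : ¬ FiniteDimensional ℂ fibreSpace := by
  intro h
  have hinj : Function.Injective (Lp.constₗ 2 haarTwoAdic ℂ : seqHilbert →ₗ[ℂ] fibreSpace) := by
    refine (injective_iff_map_eq_zero _).2 fun v hv => ?_
    have h1 := Lp.norm_const' 2 haarTwoAdic v (by simp) (by simp)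
    rw [Lp.constₗ_apply] at hv
    rw [hv] at h1
    simpa using h1.symm
  have h2 : FiniteDimensional ℂ seqHilbert := FiniteDimensional.of_injective _ hinj
  have h3 : Orthonormal ℂ basisVec := by
    rw [orthonormal_iff_ite]
    intro i j
    rw [basisVec, basisVec, lp.inner_single_left, lp.single_apply, Pi.single_apply]
    split_ifs <;> simp
  have := h3.linearIndependent.finite
  exact not_finite ℤ

/-- `‖T ^ n‖ ^ (1 / n) ≤ exp (-10 ⌊(n + 1)² / 4⌋ / n) ≤ exp (-n)` -/
theorem tendsto_root {u : ℕ → ℝ} (h0 : ∀ n, 0 ≤ u n)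
    (h : ∀ n : ℕ, 1 ≤ n → u n ≤ Real.exp (-10 * (((n + 1) ^ 2 / 4 : ℕ) : ℝ))) :
    Tendsto (fun n : ℕ => u n ^ (1 / (n : ℝ))) atTop (𝓝 0) := by
  have h1 : Tendsto (fun n : ℕ => Real.exp (-(n : ℝ))) atTop (𝓝 0) :=
    Real.tendsto_exp_neg_atTop_nhds_zero.comp tendsto_natCast_atTop_atTop
  refine squeeze_zero' (Eventually.of_forall fun n => Real.rpow_nonneg (h0 n) _) ?_ h1
  filter_upwards [eventually_ge_atTop 1] with n hn
  have hn' : (0 : ℝ) < n := by exact_mod_cast hn
  refine (Real.rpow_le_rpow (h0 n) (h n hn) (by positivity)).trans ?_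
  rw [← Real.exp_mul, Real.exp_le_exp]
  have h2 : n * n ≤ 10 * ((n + 1) ^ 2 / 4) := by
    have e : (n + 1) ^ 2 = n * n + 2 * n + 1 := by ring
    rw [e]
    omega
  have h3 : (n : ℝ) * n ≤ 10 * (((n + 1) ^ 2 / 4 : ℕ) : ℝ) := by exact_mod_cast h2
  rw [mul_one_div, div_le_iff₀ hn']
  linarith

/-- the properties in question are transported along a linear isometric equivalence
(`T = e ∘ S ∘ e⁻¹`, `W = V.comap e`) -/
theorem transport {K H : Type*} [NormedAddCommGroup K] [InnerProductSpace ℂ K] [CompleteSpace K]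
    [NormedAddCommGroup H] [InnerProductSpace ℂ H] [CompleteSpace H] (e : K ≃ₗᵢ[ℂ] H)
    {S : K →L[ℂ] K} (h0 : S ≠ 0)
    (hW : ∀ W : Submodule ℂ K, IsClosed (W : Set K) →
      (∀ A : K →L[ℂ] K, A * S = S * A → ∀ v ∈ W, A v ∈ W) → W = ⊥ ∨ W = ⊤) :
    ∃ T : H →L[ℂ] H, T ≠ 0 ∧ (∀ n : ℕ, ‖T ^ n‖ ≤ ‖S ^ n‖) ∧
      ∀ V : Submodule ℂ H, IsClosed (V : Set H) →
        (∀ A : H →L[ℂ] H, A * T = T * A → ∀ v ∈ V, A v ∈ V) → V = ⊥ ∨ V = ⊤ := by
  set Φ := e.toContinuousLinearEquiv.conjContinuousAlgEquiv with hΦ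
  have happ : ∀ (A : K →L[ℂ] K) (x : H), Φ A x = e (A (e.symm x)) := fun _ _ => rfl
  refine ⟨Φ S, fun h => h0 (Φ.injective (h.trans (map_zero Φ).symm)), fun n => ?_,
    fun V hV hA => ?_⟩
  · rw [← map_pow]
    refine ContinuousLinearMap.opNorm_le_bound _ (norm_nonneg _) fun x => ?_
    rw [happ, e.norm_map, ← e.symm.norm_map x]
    exact (S ^ n).le_opNorm _
  · have h1 := hW (V.comap e.toLinearEquiv.toLinearMap) (hV.preimage e.continuous)
      fun A hAS v hv => by
        have h2 := hA (Φ A) (by rw [← map_mul, ← map_mul, hAS]) (e v) hv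
        rw [happ, e.symm_apply_apply] at h2
        exact h2
    have h3 : ∀ x : H, x ∈ V ↔ e.symm x ∈ V.comap e.toLinearEquiv.toLinearMap := fun x => by
      simp
    rcases h1 with h1 | h1
    · left
      rw [eq_bot_iff]
      intro x hx
      rw [h3, h1, Submodule.mem_bot] at hx
      simpa using hx
    · right
      rw [eq_top_iff]
      intro x _
      rw [h3, h1]
      trivial

theorem s0148 (H : Type*) [NormedAddCommGroup H] [InnerProductSpace ℂ H] [CompleteSpace H]
    [TopologicalSpace.SeparableSpace H] (hH : ¬ FiniteDimensional ℂ H) :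
    ∃ T : H →L[ℂ] H, T ≠ 0 ∧
      Tendsto (fun n : ℕ => ‖T ^ n‖ ^ (1 / (n : ℝ))) atTop (𝓝 0) ∧
      ∀ V : Submodule ℂ H, IsClosed (V : Set H) →
        (∀ A : H →L[ℂ] H, A * T = T * A → ∀ v ∈ V, A v ∈ V) → V = ⊥ ∨ V = ⊤ := by
  obtain ⟨β, b, Sf, Vf, S, V, -, -, -, hS, -, hS0, -, hpow, -, hVS, -, -, -, -, -, htr⟩ := s0150
  obtain ⟨e₁⟩ := exists_hilbertBasis_nat H hH
  obtain ⟨e₂⟩ := exists_hilbertBasis_nat fibreSpace not_finiteDimensional_fibreSpace
  obtain ⟨T, hT0, hTn, hT⟩ := transport (e₂.repr.trans e₁.repr.symm) hS0 fun W hW hA => by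
    refine htr W hW (hA S rfl) (hA V hVS) fun g hg ⟨C, hC⟩ f hf f' hf' => ?_
    obtain ⟨M, hM⟩ := exists_fib (μ := haarTwoAdic) (MeasurePreserving.id _)
      (A := fun x => g x • (1 : seqHilbert →L[ℂ] seqHilbert))
      (fun v => hg.stronglyMeasurable.smul_const v) (C := C)
      (fun x => (ContinuousLinearMap.opNorm_smul_le _ _).trans
        ((mul_le_of_le_one_right (norm_nonneg _) ContinuousLinearMap.norm_id_le).trans (hC x)))
    have hMS : M * S = S * M := by
      refine ContinuousLinearMap.ext fun u => Lp.ext ?_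
      filter_upwards [hM (S u), hS (M u), hM u, hS u] with x h₁ h₂ h₃ h₄
      change (M (S u) : ℤ_[2] → seqHilbert) x = (S (M u) : ℤ_[2] → seqHilbert) x
      rw [h₁, h₂, h₃]
      simp [h₄]
    have e : f' = M f := by
      refine Lp.ext ?_
      filter_upwards [hf', hM f] with x h₁ h₂
      rw [h₁, h₂]
      simp
    exact e ▸ hA M hMS f hf
  exact ⟨T, hT0, tendsto_root (fun _ => norm_nonneg _) fun n hn => (hTn n).trans (hpow n hn), hT⟩

end

end Crest.Agent.R113
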