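import Crest.Agent.R194.L2
import Crest.Prelude.Def_TwoAdicShift

/-!
# Row 113: weighted shifts on `ℓ²(ℤ)` and tail subspaces

`seqHilbert` is `R194.L2 ℤ` and `basisVec` is `R194.dl` (`basisVec_eq_dl`); the flat API of `R194/L2.lean` applies.
-/

open MeasureTheory Filter Topology
open scoped InnerProductSpace BigOperators ENNReal

set_option linter.unusedSectionVars false

namespace Crest.Agent.R113

noncomputable section

open Classical

open Crest.AnalysisR.TwoAdic

/-- the weighted shift `δ_j ↦ w j • δ_{j + k}` (junk value `0` unless `|w| ≤ 1`) -/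
def wsh (k : ℤ) (w : ℤ → ℝ) : seqHilbert →L[ℂ] seqHilbert :=
  if h : ∀ j, |w j| ≤ 1 then
    (R194.pull (fun j : ℤ => j - k) sub_left_injective).comp
      (R194.mulOp (fun j => (w j : ℂ)) fun j => by simpa using h j)
  else 0

theorem basisVec_eq_dl (j : ℤ) : basisVec j = R194.dl j := by
  unfold basisVec R194.dl
  congr
  exact Subsingleton.elim _ _

theorem norm_basisVec (j : ℤ) : ‖basisVec j‖ = 1 := by
  rw [basisVec_eq_dl]
  exact R194.norm_dl j

theorem basisVec_apply (j i : ℤ) : basisVec j i = if i = j then 1 else 0 := by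
  rw [basisVec_eq_dl, R194.dl_apply]
  congr

theorem hasSum_basisVec (v : seqHilbert) : HasSum (fun j => v j • basisVec j) v := by
  have hf := lp.hasSum_single (E := fun _ : ℤ => ℂ) (p := 2) (by norm_num) v
  convert hf using 2 with j
  ext i
  simp only [lp.coeFn_smul, Pi.smul_apply, basisVec_apply, lp.single_apply, Pi.single_apply]
  split_ifs with h
  · simp
  · simp

theorem basisVec_mem_tailSpace {h j : ℤ} (hj : h ≤ j) : basisVec j ∈ tailSpace h :=
  Submodule.le_topologicalClosure _ (Submodule.subset_span ⟨⟨j, hj⟩, rfl⟩)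

/-- a closed subspace containing the basis vectors in the support of `v` contains `v` -/
theorem mem_of_basisVec {K : Submodule ℂ seqHilbert} (hK : IsClosed (K : Set seqHilbert))
    {v : seqHilbert} (h : ∀ j, v j ≠ 0 → basisVec j ∈ K) : v ∈ K := by
  refine hK.mem_of_tendsto (hasSum_basisVec v) (Eventually.of_forall fun s => ?_)
  refine K.sum_mem fun j _ => ?_
  by_cases hj : v j = 0
  · rw [hj, zero_smul]
    exact K.zero_mem
  · exact K.smul_mem _ (h j hj)

theorem wsh_apply {k : ℤ} {w : ℤ → ℝ} (hw : ∀ j, |w j| ≤ 1) (v : seqHilbert) (j : ℤ) :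
    wsh k w v j = (w (j - k) : ℂ) * v (j - k) := by
  rw [wsh, dif_pos hw]
  rfl

theorem wsh_basisVec {k : ℤ} {w : ℤ → ℝ} (hw : ∀ j, |w j| ≤ 1) (j : ℤ) :
    wsh k w (basisVec j) = (w j : ℂ) • basisVec (j + k) := by
  ext i
  rw [wsh_apply hw, lp.coeFn_smul, Pi.smul_apply, basisVec_apply, basisVec_apply, smul_eq_mul]
  by_cases h : i = j + k
  · rw [if_pos h, if_pos (by omega), h, add_sub_cancel_right]
  · rw [if_neg h, if_neg (by omega), mul_zero, mul_zero]

/-- compare `R194.hasSum_sq` for `A v` and for `v` (reindexed by `Equiv.subRight k`) -/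
theorem norm_le_of_apply {A : seqHilbert →L[ℂ] seqHilbert} {k : ℤ} {w : ℤ → ℝ} {C : ℝ}
    (hA : ∀ (v : seqHilbert) (j : ℤ), A v j = (w (j - k) : ℂ) * v (j - k)) (hw : ∀ j, |w j| ≤ C) :
    ‖A‖ ≤ C := by
  have hC : 0 ≤ C := (abs_nonneg _).trans (hw 0)
  refine ContinuousLinearMap.opNorm_le_bound _ hC fun v => ?_
  have h1 := R194.hasSum_sq (A v)
  have h2 := ((Equiv.subRight k).hasSum_iff.2 (R194.hasSum_sq v)).mul_left (C ^ 2)
  have h3 := hasSum_le (fun j => ?_) h1 h2
  · rw [← mul_pow] at h3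
    exact (sq_le_sq₀ (norm_nonneg _) (by positivity)).1 h3
  · simp only [Function.comp, Equiv.subRight_apply]
    rw [hA, norm_mul, ← mul_pow, Complex.norm_real, Real.norm_eq_abs]
    gcongr
    exact hw _

theorem norm_wsh_le {k : ℤ} {w : ℤ → ℝ} {C : ℝ} (hw : ∀ j, |w j| ≤ 1) (hC : ∀ j, |w j| ≤ C) :
    ‖wsh k w‖ ≤ C :=
  norm_le_of_apply (wsh_apply hw) hC

theorem wsh_pow_apply {d Φ : ℤ → ℝ} (hΦ : ∀ j, Φ (j + 1) = Φ j + d j) (hd : ∀ j, 0 ≤ d j) (n : ℕ)
    (v : seqHilbert) (j : ℤ) :
    ((wsh 1 fun i => Real.exp (-d i)) ^ n) v j =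
      (Real.exp (Φ (j - n) - Φ j) : ℂ) * v (j - n) := by
  have hw : ∀ i, |Real.exp (-d i)| ≤ 1 := fun i => by
    rw [abs_of_pos (Real.exp_pos _), Real.exp_le_one_iff]
    linarith [hd i]
  induction n generalizing j with
  | zero => simp
  | succ n ih =>
    rw [pow_succ', mul_apply_eq_comp, wsh_apply hw, ih, ← mul_assoc,
      ← Complex.ofReal_mul, ← Real.exp_add,
      show j - 1 - (n : ℤ) = j - ((n + 1 : ℕ) : ℤ) by push_cast; ring]
    have h := hΦ (j - 1)
    rw [sub_add_cancel] at h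
    congr 3
    linarith

/-- `Φ j = ∑_{0 ≤ i < j} d i - ∑_{j ≤ i < 0} d i` -/
theorem exists_potential (d : ℤ → ℝ) :
    ∃ Φ : ℤ → ℝ, Φ 0 = 0 ∧ ∀ j, Φ (j + 1) = Φ j + d j := by
  refine ⟨fun j => ∑ i ∈ Finset.range j.toNat, d i - ∑ i ∈ Finset.range (-j).toNat, d (-(i + 1)),
    by simp, fun j => ?_⟩
  rcases le_or_gt 0 j with h | h
  · obtain ⟨n, rfl⟩ := Int.eq_ofNat_of_zero_le h
    have e1 : ((n : ℤ) + 1).toNat = n + 1 := by omega
    have e2 : (-((n : ℤ) + 1)).toNat = 0 := by omega
    have e3 : (-(n : ℤ)).toNat = 0 := by omega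
    simp only [e1, e2, e3, Int.toNat_natCast, Finset.sum_range_succ, Finset.sum_range_zero]
    ring
  · obtain ⟨n, rfl⟩ : ∃ n : ℕ, j = -((n : ℤ) + 1) := ⟨(-j - 1).toNat, by omega⟩
    have e1 : (-((n : ℤ) + 1) + 1).toNat = 0 := by omega
    have e2 : (-(-((n : ℤ) + 1) + 1)).toNat = n := by omega
    have e3 : (-((n : ℤ) + 1)).toNat = 0 := by omega
    have e4 : (-(-((n : ℤ) + 1))).toNat = n + 1 := by omega
    simp only [e1, e2, e3, e4, Finset.sum_range_succ, Finset.sum_range_zero]
    ring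

/-- the right side is a closed subspace containing the generators; conversely use
`lp.hasSum_single` -/
theorem mem_tailSpace {h : ℤ} {v : seqHilbert} : v ∈ tailSpace h ↔ ∀ j, j < h → v j = 0 := by
  constructor
  · intro hv j hj
    have hle : tailSpace h ≤ LinearMap.ker (innerSL ℂ (R194.dl j) : seqHilbert →L[ℂ] ℂ).toLinearMap := by
      refine Submodule.topologicalClosure_minimal _ (Submodule.span_le.2 ?_)
        (ContinuousLinearMap.isClosed_ker _)
      rintro _ ⟨i, rfl⟩
      have := i.2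
      simp only [SetLike.mem_coe, LinearMap.mem_ker, ContinuousLinearMap.coe_coe, innerSL_apply_apply,
        R194.inner_dl, basisVec_apply, if_neg (show j ≠ i by omega)]
    have := hle hv
    simpa only [LinearMap.mem_ker, ContinuousLinearMap.coe_coe, innerSL_apply_apply,
      R194.inner_dl] using this
  · intro hv
    exact mem_of_basisVec (Submodule.isClosed_topologicalClosure _) fun j hj =>
      basisVec_mem_tailSpace (not_lt.1 fun h => hj (hv j h))

theorem isClosed_tailSpace (h : ℤ) : IsClosed (tailSpace h : Set seqHilbert) :=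
  Submodule.isClosed_topologicalClosure _

theorem basisVec_mem_map {k : ℤ} {w : ℤ → ℝ} (hw : ∀ j, |w j| ≤ 1) (hne : ∀ j, w j ≠ 0)
    {K : Submodule ℂ seqHilbert} {j : ℤ} (hj : basisVec (j - k) ∈ K) :
    basisVec j ∈ K.map (wsh k w).toLinearMap := by
  refine ⟨((w (j - k) : ℂ))⁻¹ • basisVec (j - k), K.smul_mem _ hj, ?_⟩
  rw [ContinuousLinearMap.coe_coe, map_smul, wsh_basisVec hw, smul_smul,
    inv_mul_cancel₀ (Complex.ofReal_ne_zero.2 (hne _)), one_smul, sub_add_cancel]

theorem closure_image_tail {k : ℤ} {w : ℤ → ℝ} (hw : ∀ j, |w j| ≤ 1) (hne : ∀ j, w j ≠ 0) (h : ℤ) :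
    closure (wsh k w '' (tailSpace h : Set seqHilbert)) = (tailSpace (h + k) : Set seqHilbert) := by
  apply Set.Subset.antisymm
  · refine closure_minimal ?_ (isClosed_tailSpace _)
    rintro _ ⟨v, hv, rfl⟩
    refine mem_tailSpace.2 fun j hj => ?_
    rw [wsh_apply hw, mem_tailSpace.1 hv _ (by omega), mul_zero]
  · intro v hv
    have : v ∈ ((tailSpace h).map (wsh k w).toLinearMap).topologicalClosure := by
      refine mem_of_basisVec (Submodule.isClosed_topologicalClosure _) fun j hj => ?_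
      have hj' : h + k ≤ j := not_lt.1 fun h' => hj (mem_tailSpace.1 hv j h')
      exact Submodule.le_topologicalClosure _
        (basisVec_mem_map hw hne (basisVec_mem_tailSpace (by omega)))
    exact this

theorem closure_range_wsh {k : ℤ} {w : ℤ → ℝ} (hw : ∀ j, |w j| ≤ 1) (hne : ∀ j, w j ≠ 0) :
    closure (Set.range (wsh k w)) = Set.univ := by
  refine Set.eq_univ_of_forall fun v => ?_
  have : v ∈ ((⊤ : Submodule ℂ seqHilbert).map (wsh k w).toLinearMap).topologicalClosure :=
    mem_of_basisVec (Submodule.isClosed_topologicalClosure _) fun j _ =>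
      Submodule.le_topologicalClosure _ (basisVec_mem_map hw hne trivial)
  refine closure_mono ?_ this
  rintro _ ⟨x, -, rfl⟩
  exact ⟨x, rfl⟩

/-- limit (`stronglyMeasurable_of_tendsto` along `atTop : Filter (Finset ℤ)`) of the finite sums
`∑ j ∈ s, (w j x * v j) • basisVec (j + k)` -/
theorem stronglyMeasurable_wsh {X : Type*} [MeasurableSpace X] {k : ℤ} {w : ℤ → X → ℝ}
    (hm : ∀ j, Measurable (w j)) (hw : ∀ j x, |w j x| ≤ 1) (v : seqHilbert) :
    StronglyMeasurable fun x => wsh k (fun j => w j x) v := by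
  refine stronglyMeasurable_of_tendsto (atTop : Filter (Finset ℤ))
    (f := fun s x => ∑ j ∈ s, ((w j x : ℂ) * v j) • basisVec (j + k)) (fun s => ?_) ?_
  · refine Finset.stronglyMeasurable_fun_sum s fun j _ => ?_
    exact (((Complex.measurable_ofReal.comp (hm j)).mul_const _).stronglyMeasurable).smul_const _
  · refine tendsto_pi_nhds.2 fun x => ?_
    have h := (wsh k fun j => w j x).hasSum (hasSum_basisVec v)
    simp only [map_smul, wsh_basisVec (fun j => hw j x), smul_smul, mul_comm (v _)] at h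
    exact h

end

end Crest.Agent.R113
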