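import Crest.Agent.R113.Domar2
import Crest.Agent.R113.Shift

/-!
# Row 113: bilateral shifts with superexponentially decaying weights are unicellular
-/

open MeasureTheory Filter Topology
open scoped InnerProductSpace BigOperators ENNReal

set_option linter.unusedSectionVars false

namespace Crest.Agent.R113

noncomputable section

open Classical

open Crest.AnalysisR.TwoAdic

/-- costs growing by a factor `100` in both directions -/
structure Fast (d : ℤ → ℝ) : Prop where
  zero : d 0 = 10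
  pos : ∀ j, 0 ≤ j → 100 * d j ≤ d (j + 1)
  neg : ∀ j, j ≤ 0 → 100 * d j ≤ d (j - 1)

/-- the forward shift with weights `exp (-d j)` -/
def fsh (d : ℤ → ℝ) : seqHilbert →L[ℂ] seqHilbert := wsh 1 fun j => Real.exp (-d j)

namespace Fast
variable {d : ℤ → ℝ}

theorem pow_le (h : Fast d) (j : ℤ) : 10 * (100 : ℝ) ^ j.natAbs ≤ d j := by
  have hp : ∀ n : ℕ, 10 * (100 : ℝ) ^ n ≤ d n := by
    intro n
    induction n with
    | zero => simp [h.zero]
    | succ n ih =>
      have := h.pos n (Int.natCast_nonneg n)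
      push_cast
      rw [pow_succ]
      linarith
  have hn : ∀ n : ℕ, 10 * (100 : ℝ) ^ n ≤ d (-n) := by
    intro n
    induction n with
    | zero => simp [h.zero]
    | succ n ih =>
      have := h.neg (-n) (by omega)
      have e : (-((n + 1 : ℕ) : ℤ)) = -n - 1 := by push_cast; ring
      rw [e, pow_succ]
      linarith
  rcases Int.natAbs_eq j with e | e
  · have := hp j.natAbs
    rwa [← e] at this
  · have := hn j.natAbs
    rwa [← e] at this

theorem ten_le (h : Fast d) (j : ℤ) : 10 ≤ d j := by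
  have h1 := h.pow_le j
  have h2 : (1 : ℝ) ≤ 100 ^ j.natAbs := one_le_pow₀ (by norm_num)
  linarith

theorem abs_le (h : Fast d) (j : ℤ) : |Real.exp (-d j)| ≤ 1 := by
  rw [abs_of_pos (Real.exp_pos _), Real.exp_le_one_iff]
  have := h.ten_le j
  linarith

/-- By `wsh_pow_apply`, `R194.hasSum_inner'` and `domar_key` (for `f` and `conj g`), the support of
`f` has a least element `p₀` and the support of `g` a greatest element `q₀`
(`Int.exists_least_of_bdd`, `Int.exists_greatest_of_bdd`).  If `p₀ ≤ q₀`, the sum for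
`n = q₀ - p₀` has exactly one nonzero term. -/
theorem orth (h : Fast d) {f g : seqHilbert} (ho : ∀ n : ℕ, ⟪g, (fsh d ^ n) f⟫_ℂ = 0) {p q : ℤ}
    (hp : f p ≠ 0) (hq : g q ≠ 0) : q < p := by
  obtain ⟨Φ, -, hΦ⟩ := exists_potential d
  have hd : ∀ j, 0 ≤ d j := fun j => by have := h.ten_le j; linarith
  have hsum : ∀ n : ℕ, HasSum (fun j : ℤ => f j * (starRingEnd ℂ) (g (j + n)) *
      (Real.exp (Φ j - Φ (j + n)) : ℂ)) 0 := by
    intro n
    have h1 := R194.hasSum_inner' g ((fsh d ^ n) f)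
    rw [ho n] at h1
    have h2 := (Equiv.addRight (n : ℤ)).hasSum_iff.2 h1
    convert h2 using 2 with j
    simp only [Function.comp, Equiv.coe_addRight, fsh]
    rw [wsh_pow_apply hΦ hd n f]
    simp only [add_sub_cancel_right]
    ring
  have key : ∀ p q : ℤ, f p ≠ 0 → g q ≠ 0 → q ≤ p + 1 := by
    intro p q hp hq
    refine domar_key (C := ‖f‖ + ‖g‖ + 1) (f := fun j => f j) (g := fun j => (starRingEnd ℂ) (g j))
      hΦ (by rw [h.zero]; norm_num) h.pos h.neg (by positivity) (fun j => ?_) (fun j => ?_)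
      (fun n _ => hsum n) hp (by simpa using hq)
    · have := lp.norm_apply_le_norm (p := 2) (by norm_num) f j
      have := norm_nonneg g
      linarith
    · have := lp.norm_apply_le_norm (p := 2) (by norm_num) g j
      have := norm_nonneg f
      rw [RCLike.norm_conj]
      linarith
  obtain ⟨p₀, hp₀, hmin⟩ := Int.exists_least_of_bdd (P := fun j => f j ≠ 0)
    ⟨q - 1, fun z hz => by have := key z q hz hq; omega⟩ ⟨p, hp⟩
  obtain ⟨q₀, hq₀, hmax⟩ := Int.exists_greatest_of_bdd (P := fun j => g j ≠ 0)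
    ⟨p + 1, fun z hz => key p z hp hz⟩ ⟨q, hq⟩
  by_contra hlt
  have h1 := hmin p hp
  have h2 := hmax q hq
  obtain ⟨n, hn⟩ : ∃ n : ℕ, q₀ = p₀ + n := ⟨(q₀ - p₀).toNat, by omega⟩
  have h3 := hasSum_single (f := fun j : ℤ => f j * (starRingEnd ℂ) (g (j + n)) *
      (Real.exp (Φ j - Φ (j + n)) : ℂ)) p₀ (by
    intro j hj
    rcases lt_or_gt_of_ne hj with hj | hj
    · have : f j = 0 := by
        by_contra hne
        have := hmin j hne
        omega
      simp [this]
    · have : g (j + n) = 0 := by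
        by_contra hne
        have := hmax _ hne
        omega
      simp [this])
  have h4 := h3.unique (hsum n)
  rw [← hn] at h4
  have h5 : (Real.exp (Φ p₀ - Φ q₀) : ℂ) ≠ 0 := by exact_mod_cast (Real.exp_pos _).ne'
  have h6 : (starRingEnd ℂ) (g q₀) ≠ 0 := by simpa using hq₀
  exact mul_ne_zero (mul_ne_zero hp₀ h6) h5 h4

/-- For `W ≠ ⊥, ⊤` apply `orth` to `f ∈ W`, `g ∈ Wᗮ`; `h` is the least index at which some vector of
`W` does not vanish.  Then `W ≤ tailSpace h`, and `Wᗮ` is orthogonal to `tailSpace h`, so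
`tailSpace h ≤ Wᗮᗮ = W`. -/
theorem invariant_iff (h : Fast d) (W : Submodule ℂ seqHilbert)
    (hW : IsClosed (W : Set seqHilbert)) :
    (∀ v ∈ W, fsh d v ∈ W) ↔ (W = ⊥ ∨ W = ⊤ ∨ ∃ h : ℤ, W = tailSpace h) := by
  constructor
  · intro hinv
    by_cases hbot : W = ⊥
    · exact Or.inl hbot
    by_cases htop : W = ⊤
    · exact Or.inr (Or.inl htop)
    refine Or.inr (Or.inr ?_)
    have : CompleteSpace W := hW.completeSpace_coe
    have hpow : ∀ n : ℕ, ∀ v ∈ W, (fsh d ^ n) v ∈ W := by
      intro n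
      induction n with
      | zero => intro v hv; simpa using hv
      | succ n ih =>
        intro v hv
        rw [pow_succ', mul_apply_eq_comp]
        exact hinv _ (ih v hv)
    have key : ∀ f ∈ W, ∀ g ∈ Wᗮ, ∀ p q : ℤ, f p ≠ 0 → g q ≠ 0 → q < p := by
      intro f hf g hg p q hp hq
      exact h.orth (fun n => Submodule.inner_left_of_mem_orthogonal (hpow n f hf) hg) hp hq
    have hne : ∀ f : seqHilbert, f ≠ 0 → ∃ p, f p ≠ 0 := by
      intro f hf
      by_contra hc
      push Not at hc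
      exact hf (lp.ext (funext hc))
    obtain ⟨f, hf, hf0⟩ := Submodule.exists_mem_ne_zero_of_ne_bot hbot
    have hperp : Wᗮ ≠ ⊥ := fun e => htop (Submodule.orthogonal_eq_bot_iff.1 e)
    obtain ⟨g, hg, hg0⟩ := Submodule.exists_mem_ne_zero_of_ne_bot hperp
    obtain ⟨p, hp⟩ := hne f hf0
    obtain ⟨q, hq⟩ := hne g hg0
    obtain ⟨k, ⟨f₀, hf₀, hk⟩, hmin⟩ := Int.exists_least_of_bdd (P := fun j => ∃ u ∈ W, u j ≠ 0)
      ⟨q, fun z ⟨u, hu, hz⟩ => (key u hu g hg z q hz hq).le⟩ ⟨p, f, hf, hp⟩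
    refine ⟨k, le_antisymm ?_ ?_⟩
    · intro v hv
      rw [mem_tailSpace]
      intro j hj
      by_contra hc
      have := hmin j ⟨v, hv, hc⟩
      omega
    · intro v hv
      rw [mem_tailSpace] at hv
      rw [← Submodule.orthogonal_orthogonal W, Submodule.mem_orthogonal]
      intro u hu
      refine (R194.hasSum_inner' u v).unique ?_
      convert hasSum_zero with s
      rcases lt_or_ge s k with hs | hs
      · simp [hv s hs]
      · have : u s = 0 := by
          by_contra hc
          have := key f₀ hf₀ u hu k s hk hc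
          omega
        simp [this]
  · rintro (rfl | rfl | ⟨k, rfl⟩)
    · intro v hv
      rw [Submodule.mem_bot] at hv
      simp [hv]
    · intro v _
      trivial
    · intro v hv
      rw [mem_tailSpace] at hv ⊢
      intro j hj
      rw [fsh, wsh_apply h.abs_le, hv _ (by omega), mul_zero]

/-- A window of `n` consecutive integers contains `i` with `|i| ≥ m = n / 2`, and
`(n + 1)^2 / 4 ≤ (m + 1)^2 ≤ 100^m`; use `norm_le_of_apply` and `wsh_pow_apply`. -/
theorem norm_pow_le (h : Fast d) {n : ℕ} (hn : 1 ≤ n) :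
    ‖fsh d ^ n‖ ≤ Real.exp (-10 * (((n + 1) ^ 2 / 4 : ℕ) : ℝ)) := by
  obtain ⟨Φ, -, hΦ⟩ := exists_potential d
  have hd : ∀ j, 0 ≤ d j := fun j => by have := h.ten_le j; linarith
  have hmono : Monotone Φ := monotone_int_of_le_succ fun j => by
    rw [hΦ]
    have := hd j
    linarith
  refine norm_le_of_apply (k := n) (w := fun j => Real.exp (Φ j - Φ (j + n))) (fun v j => ?_)
    fun j => ?_
  · rw [fsh, wsh_pow_apply hΦ hd n v j, sub_add_cancel]
  · rw [abs_of_pos (Real.exp_pos _), Real.exp_le_exp]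
    obtain ⟨i, h1, h2, h3⟩ : ∃ i : ℤ, j ≤ i ∧ i + 1 ≤ j + n ∧ n / 2 ≤ i.natAbs := by
      by_cases hj : n / 2 ≤ j.natAbs
      · exact ⟨j, le_rfl, by omega, hj⟩
      · exact ⟨j + n - 1, by omega, by omega, by omega⟩
    have h4 := hmono h1
    have h5 := hmono h2
    have h6 := hΦ i
    have h7 := h.pow_le i
    have h8 : (n + 1) ^ 2 / 4 ≤ 100 ^ i.natAbs := by
      have a1 : i.natAbs + 1 ≤ 10 ^ i.natAbs := Nat.lt_pow_self (by norm_num)
      have a2 : n + 1 ≤ 2 * 10 ^ i.natAbs := by omega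
      have a3 : (n + 1) ^ 2 ≤ (2 * 10 ^ i.natAbs) ^ 2 := Nat.pow_le_pow_left a2 2
      have a4 : (2 * 10 ^ i.natAbs) ^ 2 = 100 ^ i.natAbs * 4 := by
        rw [mul_pow, ← pow_mul, mul_comm i.natAbs 2, pow_mul]
        ring
      rw [a4] at a3
      exact Nat.div_le_of_le_mul (by linarith)
    have h9 : (((n + 1) ^ 2 / 4 : ℕ) : ℝ) ≤ 100 ^ i.natAbs := by exact_mod_cast h8
    linarith

end Fast

end

end Crest.Agent.R113
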