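import Crest.Agent.R113.Unicell

/-!
# Row 113: the weights over the 2-adic odometer
-/

open MeasureTheory Filter Topology
open scoped InnerProductSpace BigOperators ENNReal

set_option linter.unusedSectionVars false

namespace Crest.Agent.R113

noncomputable section

open Classical

open Crest.AnalysisR.TwoAdic

attribute [local instance] borelTwoAdic borelSpace_twoAdic

/-- the residue modulo `2 ^ k` -/
def res (k : ℕ) (x : ℤ_[2]) : ℕ := (PadicInt.toZModPow k x).val

/-- the fibres are closed balls (`PadicInt.ker_toZModPow`,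
`PadicInt.norm_le_pow_iff_mem_span_pow`) -/
theorem measurable_res (k : ℕ) : Measurable (res k) := by
  refine measurable_to_countable' fun n => ?_
  refine IsOpen.measurableSet (Metric.isOpen_iff.2 fun x hx => ?_)
  refine ⟨((2 : ℕ) : ℝ) ^ (-k : ℤ), by positivity, fun y hy => ?_⟩
  rw [Metric.mem_ball, dist_eq_norm] at hy
  have h1 := (PadicInt.norm_le_pow_iff_mem_span_pow (y - x) k).1 hy.le
  rw [← PadicInt.ker_toZModPow, RingHom.mem_ker, map_sub, sub_eq_zero] at h1
  have h2 : res k x = n := hx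
  change res k y = n
  rw [← h2, res, res, h1]

theorem res_lt (k : ℕ) (x : ℤ_[2]) : res k x < 2 ^ k := by
  exact ZMod.val_lt _

/-- `res k x = res (k + 1) x % 2 ^ k` (`PadicInt.cast_toZModPow`) -/
theorem res_mono (x : ℤ_[2]) : Monotone fun k => res k x := by
  refine monotone_nat_of_le_succ fun k => ?_
  have h := PadicInt.cast_toZModPow k (k + 1) (Nat.le_succ k) x
  unfold res
  rw [← h, ZMod.cast_eq_val, ZMod.val_natCast]
  exact Nat.mod_le _ _

/-- `toZModPow k (x + 1) ≠ 0` for large `k` (`PadicInt.ext_of_toZModPow`) -/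
theorem res_add_one {x : ℤ_[2]} (hx : x ≠ -1) : ∀ᶠ k in atTop, res k (x + 1) = res k x + 1 := by
  have h0 : ∃ k, PadicInt.toZModPow k (x + 1) ≠ 0 := by
    by_contra h
    push Not at h
    refine hx (eq_neg_of_add_eq_zero_left (PadicInt.ext_of_toZModPow.1 fun n => ?_))
    rw [h n, map_zero]
  obtain ⟨k₀, hk₀⟩ := h0
  filter_upwards [eventually_ge_atTop k₀] with k hk
  have h1 : PadicInt.toZModPow k (x + 1) ≠ 0 := by
    intro h
    apply hk₀
    rw [← PadicInt.cast_toZModPow k₀ k hk, h, ZMod.cast_zero]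
  have h2 : PadicInt.toZModPow k (x + 1) = ((res k x + 1 : ℕ) : ZMod (2 ^ k)) := by
    rw [map_add, map_one, res]
    push_cast
    rw [ZMod.natCast_zmod_val]
  have h3 : res k x + 1 < 2 ^ k := by
    refine lt_of_le_of_ne (res_lt k x) fun h => h1 ?_
    rw [h2, h, ZMod.natCast_self]
  rw [res, h2, ZMod.val_natCast, Nat.mod_eq_of_lt h3]

/-- `Y j x = j + res k x` for the least `k` with `j + res k x ≤ 4 ^ k` (`Measurable.find`).  If
`res k (x + 1) = res k x + 1` for `k ≥ k₀` and `j > 4 ^ k₀`, the least `k` is the same for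
`(j, x + 1)` and `(j + 1, x)`. -/
theorem exists_Y : ∃ Y : ℕ → ℤ_[2] → ℕ, (∀ j, Measurable (Y j)) ∧ (∀ x, Y 0 x = 0) ∧
    (∀ j x, Y j x < Y (j + 1) x) ∧
    ∀ x, x ≠ -1 → ∀ᶠ j in atTop, Y j (x + 1) = Y (j + 1) x := by
  have hex : ∀ (j : ℕ) (x : ℤ_[2]), ∃ k, j + res k x ≤ 4 ^ k := by
    intro j x
    refine ⟨j + 1, ?_⟩
    have h1 := res_lt (j + 1) x
    have h2 : j + 1 < 2 ^ (j + 1) := Nat.lt_two_pow_self
    have h3 : 4 ^ (j + 1) = 2 ^ (j + 1) * 2 ^ (j + 1) := by rw [← mul_pow]; rfl
    rw [h3]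
    nlinarith
  refine ⟨fun j x => j + res (Nat.find (hex j x)) x, fun j => ?_, fun x => ?_, fun j x => ?_,
    fun x hx => ?_⟩
  · exact Measurable.find (f := fun k x => j + res k x) (p := fun k x => j + res k x ≤ 4 ^ k)
      (fun k => (measurable_res k).const_add j)
      (fun k => ((measurable_res k).const_add j) (MeasurableSet.of_discrete (s := Set.Iic (4 ^ k))))
      (hex j)
  · have h0 : res 0 x = 0 := by
      have := res_lt 0 x
      omega
    have h1 : Nat.find (hex 0 x) = 0 := (Nat.find_eq_zero _).2 (by simp [h0])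
    simp only [h1, h0]
  · have h1 : Nat.find (hex j x) ≤ Nat.find (hex (j + 1) x) :=
      Nat.find_mono fun k hk => by omega
    have h2 : res _ x ≤ res _ x := res_mono x h1
    simp only
    omega
  · obtain ⟨k₀, hk₀⟩ := eventually_atTop.1 (res_add_one hx)
    filter_upwards [eventually_gt_atTop (4 ^ k₀)] with j hj
    have hsm : ∀ k, k < k₀ → 4 ^ k < j := fun k hk =>
      lt_of_le_of_lt (Nat.pow_le_pow_right (by norm_num) hk.le) hj
    have h1 : Nat.find (hex j (x + 1)) = Nat.find (hex (j + 1) x) := by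
      refine Nat.find_congr' fun {k} => ?_
      rcases lt_or_ge k k₀ with h | h
      · have := hsm k h
        omega
      · rw [hk₀ k h]
        omega
    have h2 : k₀ ≤ Nat.find (hex (j + 1) x) := by
      by_contra h
      have h3 := hsm _ (not_le.1 h)
      have h4 := Nat.find_spec (hex (j + 1) x)
      omega
    rw [h1, hk₀ _ h2]
    omega

/-- `d j x = 10 * 100 ^ Y j x` for `j ≥ 0` and `10 * 100 ^ Y (-j) (-1 - x)` for `j ≤ 0` -/
theorem exists_d : ∃ d : ℤ → ℤ_[2] → ℝ, (∀ j, Measurable (d j)) ∧ (∀ x, Fast fun j => d j x) ∧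
    ∀ x, x ≠ -1 → {j : ℤ | d (j - 1) (x + 1) ≠ d j x}.Finite := by
  obtain ⟨Y, hm, h0, hlt, hev⟩ := exists_Y
  have hstep : ∀ j x, 100 * (10 * (100 : ℝ) ^ Y j x) ≤ 10 * 100 ^ Y (j + 1) x := by
    intro j x
    have h1 : (100 : ℝ) ^ (Y j x + 1) ≤ 100 ^ Y (j + 1) x :=
      pow_le_pow_right₀ (by norm_num) (hlt j x)
    rw [pow_succ] at h1
    linarith
  let d : ℤ → ℤ_[2] → ℝ := fun j x =>
    if 0 ≤ j then 10 * 100 ^ Y j.toNat x else 10 * 100 ^ Y (-j).toNat (-1 - x)
  have hp : ∀ (n : ℕ) x, d n x = 10 * 100 ^ Y n x := by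
    intro n x
    simp [d]
  have hn : ∀ (n : ℕ) x, d (-n) x = 10 * 100 ^ Y n (-1 - x) := by
    intro n x
    rcases Nat.eq_zero_or_pos n with rfl | h
    · simp [d, h0]
    · have : ¬ (0 : ℤ) ≤ -n := by omega
      simp only [d, this, if_false, neg_neg, Int.toNat_natCast]
  refine ⟨d, fun j => ?_, fun x => ⟨?_, fun j hj => ?_, fun j hj => ?_⟩, fun x hx => ?_⟩
  · have hpow : Measurable fun n : ℕ => 10 * (100 : ℝ) ^ n := Measurable.of_discrete
    by_cases hj : 0 ≤ j
    · simp only [d, hj, if_true]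
      exact hpow.comp (hm _)
    · simp only [d, hj, if_false]
      exact hpow.comp ((hm _).comp (measurable_const.sub measurable_id))
  · simp [d, h0]
  · obtain ⟨n, rfl⟩ := Int.eq_ofNat_of_zero_le hj
    rw [show (n : ℤ) + 1 = ((n + 1 : ℕ) : ℤ) by push_cast; rfl, hp, hp]
    exact hstep n x
  · obtain ⟨n, rfl⟩ := Int.exists_eq_neg_ofNat hj
    rw [show -(n : ℤ) - 1 = -((n + 1 : ℕ) : ℤ) by push_cast; ring, hn, hn]
    exact hstep n _
  · obtain ⟨a, ha⟩ := eventually_atTop.1 (hev x hx)
    have hy : -1 - (x + 1) ≠ -1 := by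
      intro h
      apply hx
      linear_combination -h
    obtain ⟨b, hb⟩ := eventually_atTop.1 (hev _ hy)
    refine (Set.finite_Icc (-(b : ℤ)) a).subset fun j hj => ?_
    by_contra hj'
    apply hj
    rw [Set.mem_Icc, not_and_or, not_le, not_le] at hj'
    rcases hj' with h | h
    · obtain ⟨n, rfl⟩ := Int.exists_eq_neg_ofNat (show j ≤ 0 by omega)
      rw [show -(n : ℤ) - 1 = -((n + 1 : ℕ) : ℤ) by push_cast; ring, hn, hn,
        ← hb n (by omega)]
      congr 3
      ring
    · obtain ⟨n, hn⟩ := Int.eq_ofNat_of_zero_le (show 0 ≤ j - 1 by omega)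
      rw [hn, show j = ((n + 1 : ℕ) : ℤ) by push_cast; omega, hp, hp, ha n (by omega)]

/-- `b j x = exp (P j x - V x)` off `N` and `0` on `N`, where `P` is the potential of `δ`
(`∑_{0 ≤ i < j} - ∑_{j ≤ i < 0}`) and `V x = (∑' i, ENNReal.ofReal |δ i x|).toReal`. -/
theorem exists_b {X : Type*} [MeasurableSpace X] {δ : ℤ → X → ℝ} (hδ : ∀ j, Measurable (δ j))
    {N : Set X} (hN : MeasurableSet N) (hfin : ∀ x, x ∉ N → {j : ℤ | δ j x ≠ 0}.Finite) :
    ∃ b : ℤ → X → ℝ, (∀ j, Measurable (b j)) ∧ (∀ j x, 0 ≤ b j x ∧ b j x ≤ 1) ∧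
      (∀ x, x ∉ N → ∀ j, 0 < b j x) ∧ ∀ j x, b (j + 1) x = b j x * Real.exp (δ j x) := by
  let P : ℤ → X → ℝ := fun j x => ∑ i ∈ Finset.Ico 0 j, δ i x - ∑ i ∈ Finset.Ico j 0, δ i x
  let V : X → ℝ := fun x => ∑' i, |δ i x|
  have hP : ∀ j, Measurable (P j) := fun j =>
    (Finset.measurable_fun_sum _ fun i _ => hδ i).sub (Finset.measurable_fun_sum _ fun i _ => hδ i)
  have hV : Measurable V := Measurable.tsum fun i => (hδ i).abs
  have hPV : ∀ j x, x ∉ N → P j x ≤ V x := by
    intro j x hx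
    have hs : Summable fun i => |δ i x| :=
      summable_of_hasFiniteSupport ((hfin x hx).subset fun i hi => by simpa using hi)
    have hle : ∀ s : Finset ℤ, |∑ i ∈ s, δ i x| ≤ V x := fun s =>
      (Finset.abs_sum_le_sum_abs _ _).trans (hs.sum_le_tsum s fun i _ => abs_nonneg _)
    rcases le_total 0 j with h | h
    · simp only [P, Finset.Ico_eq_empty_of_le h, Finset.sum_empty, sub_zero]
      exact (le_abs_self _).trans (hle _)
    · simp only [P, Finset.Ico_eq_empty_of_le h, Finset.sum_empty, zero_sub]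
      exact (neg_le_abs _).trans (hle _)
  have hPs : ∀ j x, P (j + 1) x = P j x + δ j x := by
    intro j x
    rcases le_or_gt 0 j with h | h
    · have h1 : Finset.Ico 0 (j + 1) = insert j (Finset.Ico 0 j) := by
        ext i
        simp only [Finset.mem_Ico, Finset.mem_insert]
        omega
      simp only [P, Finset.Ico_eq_empty_of_le h,
        Finset.Ico_eq_empty_of_le (show 0 ≤ j + 1 by omega), Finset.sum_empty, sub_zero, h1]
      rw [Finset.sum_insert (by simp), add_comm]
    · have h1 : Finset.Ico j 0 = insert j (Finset.Ico (j + 1) 0) := by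
        ext i
        simp only [Finset.mem_Ico, Finset.mem_insert]
        omega
      simp only [P, Finset.Ico_eq_empty_of_le h.le,
        Finset.Ico_eq_empty_of_le (show j + 1 ≤ 0 by omega), Finset.sum_empty, zero_sub, h1]
      rw [Finset.sum_insert (by simp)]
      ring
  refine ⟨fun j x => if x ∈ N then 0 else Real.exp (P j x - V x), fun j => ?_, fun j x => ?_,
    fun x hx j => ?_, fun j x => ?_⟩
  · exact Measurable.ite hN measurable_const ((hP j).sub hV).exp
  · by_cases hx : x ∈ N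
    · simp [hx]
    · simp only [hx, if_false]
      exact ⟨(Real.exp_pos _).le, Real.exp_le_one_iff.2 (sub_nonpos.2 (hPV j x hx))⟩
  · simp only [hx, if_false]
    exact Real.exp_pos _
  · by_cases hx : x ∈ N
    · simp [hx]
    · simp only [hx, if_false]
      rw [← Real.exp_add, hPs]
      congr 1
      ring

theorem exists_weights : ∃ d b : ℤ → ℤ_[2] → ℝ, (∀ j, Measurable (d j)) ∧
    (∀ x, Fast fun j => d j x) ∧ (∀ j, Measurable (b j)) ∧ (∀ j x, 0 ≤ b j x ∧ b j x ≤ 1) ∧
    (∀ x, x ≠ -1 → ∀ j, 0 < b j x) ∧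
    ∀ j x, Real.exp (-d j x) * b (j + 1) x = b j x * Real.exp (-d (j - 1) (x + 1)) := by
  obtain ⟨d, hm, hF, hfin⟩ := exists_d
  obtain ⟨b, hbm, hb01, hbpos, hb⟩ :=
    exists_b (δ := fun j x => d j x - d (j - 1) (x + 1))
      (fun j => (hm j).sub ((hm (j - 1)).comp (measurable_add_const 1)))
      (measurableSet_singleton (-1 : ℤ_[2]))
      (fun x hx => (hfin x hx).subset fun j hj h => hj (by simp [h]))
  refine ⟨d, b, hm, hF, hbm, hb01, hbpos, fun j x => ?_⟩
  rw [hb, mul_left_comm, ← Real.exp_add]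
  congr 2
  ring

instance haar_haar : haarTwoAdic.IsAddHaarMeasure := by
  unfold haarTwoAdic
  infer_instance

instance prob_haar : IsProbabilityMeasure haarTwoAdic := by
  constructor
  have := Measure.addHaarMeasure_self (K₀ := (⊤ : TopologicalSpace.PositiveCompacts ℤ_[2]))
  simpa [haarTwoAdic] using this

/-- the points `(n : ℤ_[2])` are distinct and have the same mass -/
theorem haar_singleton (x : ℤ_[2]) : haarTwoAdic {x} = 0 := by
  by_contra h
  have h1 : ∀ y : ℤ_[2], haarTwoAdic {y} = haarTwoAdic {x} := by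
    intro y
    rw [← measure_preimage_add haarTwoAdic (x - y) {x}]
    congr 1
    ext z
    simp only [Set.mem_singleton_iff, Set.mem_preimage]
    constructor
    · rintro rfl
      ring
    · intro hz
      linear_combination hz
  have h2 : haarTwoAdic (⋃ n : ℕ, {(n : ℤ_[2])}) = ∑' n : ℕ, haarTwoAdic {(n : ℤ_[2])} :=
    measure_iUnion (fun m n hmn => Set.disjoint_singleton.2 (by exact_mod_cast hmn))
      fun n => measurableSet_singleton _
  simp only [h1] at h2
  rw [ENNReal.tsum_const_eq_top_of_ne_zero h] at h2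
  exact measure_ne_top _ _ h2

theorem pres_add (a : ℤ_[2]) : MeasurePreserving (fun x => x + a) haarTwoAdic haarTwoAdic := by
  exact measurePreserving_add_right haarTwoAdic a

/-- `ergodic_add_left_of_denseRange_zsmul`, `PadicInt.denseRange_intCast` -/
theorem ergodic_add_one : Ergodic (fun x : ℤ_[2] => x + 1) haarTwoAdic := by
  have h : DenseRange (fun n : ℤ => n • (1 : ℤ_[2])) := by
    simpa using PadicInt.denseRange_intCast (p := 2)
  have := ergodic_add_left_of_denseRange_zsmul h haarTwoAdic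
  simpa only [add_comm] using this

end

end Crest.Agent.R113
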